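import Vale.Agent.P032.S5.H483.Irr

/-!
# P032: circles in a frame with locally finite three-coloured points

`LF3 U T`: the points of `XX U` with at least three colours are locally finite.
`LF3.circ`: finitely many of them on every unit circle.
`Irr.arc_dich`: on an open arc of `S(z)` without such points, either the palette is one fixed pair
of colours of `z`, or every point has a colour which is not a colour of `z`.
-/

open Set Filter Topology Metric

noncomputable section

namespace Vale.Agent.P032.Six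

variable {k : ℕ} {U : Fin k → Set ℂ} {T : ℂ → Set (Fin k)}

/-- the points of `XX U` with at least three colours are locally finite -/
def LF3 (U : Fin k → Set ℂ) (T : ℂ → Set (Fin k)) : Prop :=
  ∀ x, ∃ t ∈ 𝓝 x, ({y | y ∈ XX U ∧ 3 ≤ (T y).ncard} ∩ t).Finite

theorem LF3.compact (h : LF3 U T) {K : Set ℂ} (hK : IsCompact K) :
    ({y | y ∈ XX U ∧ 3 ≤ (T y).ncard} ∩ K).Finite := by
  choose t ht hfin using h
  obtain ⟨s, -, hs⟩ := hK.elim_nhds_subcover t fun x _ => ht x
  refine (s.finite_toSet.biUnion fun x _ => hfin x).subset ?_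
  rintro y ⟨hy, hyK⟩
  obtain ⟨x, hx, hyx⟩ := mem_iUnion₂.1 (hs hyK)
  exact mem_iUnion₂.2 ⟨x, hx, hy, hyx⟩

/-- finitely many points with three colours on every unit circle -/
theorem LF3.circ (h : LF3 U T) (z : ℂ) :
    {y | dist y z = 1 ∧ y ∈ XX U ∧ 3 ≤ (T y).ncard}.Finite :=
  (h.compact (isCompact_sphere z 1)).subset fun _ hy => ⟨hy.2, hy.1⟩

/-- near a point of `S(z)` whose palette is inside `T z` the circle carries it, if it has at most
two colours -/
theorem Irr.near_exact (h : Irr U T) {z y : ℂ} (h2 : (T y).ncard ≤ 2)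
    (hsub : T y ⊆ T z) : ∀ᶠ q in 𝓝[sphere z 1] y, T q = T y := by
  filter_upwards [mem_nhdsWithin_of_mem_nhds (h.nhd y), self_mem_nhdsWithin] with q h1 h3
  by_contra hne
  have h4 : (T q).ncard < (T y).ncard := Set.ncard_lt_ncard ⟨h1, fun h5 => hne (h1.antisymm h5)⟩
    (Set.toFinite _)
  obtain ⟨i, hi⟩ := h.ne q
  have h5 : T q ⊆ {i} := fun m hm => (Set.ncard_le_one (Set.toFinite _)).1 (by omega) m hm i hi
  exact h.mx.notMem' (h.mem_of_single h5) h3 (h.sub z (hsub (h1 hi)))

/-- such a point has exactly two colours -/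
theorem Irr.ncard_exact (h : Irr U T) {z y : ℂ} (hy : dist y z = 1) (h2 : (T y).ncard ≤ 2)
    (hsub : T y ⊆ T z) : (T y).ncard = 2 := by
  refine le_antisymm h2 ?_
  obtain ⟨i, hi⟩ := h.ne y
  have hX : y ∈ XX U := h.mem_XX hy hi (h.sub z (hsub hi))
  obtain ⟨j, hj, hji⟩ := h.two hX i
  have h1 := Set.ncard_le_ncard (show ({j, i} : Set (Fin k)) ⊆ T y by
    rintro m (rfl | rfl) <;> assumption) (Set.toFinite _)
  rwa [Set.ncard_pair hji] at h1

/-- **The arcs of a circle.** -/
theorem Irr.arc_dich (h : Irr U T) {z : ℂ} {α β : ℝ}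
    (hE : ∀ t ∈ Ioo α β, ¬ (z + cis t ∈ XX U ∧ 3 ≤ (T (z + cis t)).ncard)) :
    (∃ P ⊆ T z, P.ncard = 2 ∧ ∀ t ∈ Ioo α β, T (z + cis t) = P) ∨
      ∀ t ∈ Ioo α β, ∃ i ∈ T (z + cis t), i ∉ T z := by
  by_cases hex : ∃ t ∈ Ioo α β, T (z + cis t) ⊆ T z
  · left
    obtain ⟨t0, ht0, hsub⟩ := hex
    have hX : ∀ t, (∃ i ∈ T (z + cis t), i ∈ T z) → z + cis t ∈ XX U := by
      rintro t ⟨i, hi, hiz⟩
      exact h.mem_XX (dist_add_cis z t) hi (h.sub z hiz)
    have hle : ∀ t ∈ Ioo α β, T (z + cis t) ⊆ T z → (T (z + cis t)).ncard ≤ 2 := by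
      intro t ht hs
      by_contra hcon
      obtain ⟨i, hi⟩ := h.ne (z + cis t)
      exact hE t ht ⟨hX t ⟨i, hi, hs hi⟩, by omega⟩
    set P := T (z + cis t0) with hP
    have hP2 : P.ncard = 2 := h.ncard_exact (dist_add_cis z t0) (hle t0 ht0 hsub) hsub
    refine ⟨P, hsub, hP2, ?_⟩
    have hc : Continuous fun t : ℝ => z + cis t := continuous_const.add continuous_cis
    -- open
    have hopen : ∀ t ∈ Ioo α β, T (z + cis t) = P → ∀ᶠ s in 𝓝 t, T (z + cis s) = P := by
      intro t ht hT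
      have h1 := h.near_exact (z := z) (by rw [hT, hP2]) (by rw [hT]; exact hsub)
      have h2 : Tendsto (fun s : ℝ => z + cis s) (𝓝 t) (𝓝[sphere z 1] (z + cis t)) :=
        tendsto_nhdsWithin_iff.2 ⟨hc.tendsto t, Eventually.of_forall fun s => dist_add_cis z s⟩
      filter_upwards [h2.eventually h1] with s hs
      rw [hs, hT]
    -- closed
    have hclosed : ∀ t ∈ Ioo α β, T (z + cis t) ≠ P → ∀ᶠ s in 𝓝 t, T (z + cis s) ≠ P := by
      intro t ht hT
      have h1 : ¬ P ⊆ T (z + cis t) := by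
        intro h2
        have h3 : (T (z + cis t)).ncard ≤ 2 := by
          by_contra hcon
          obtain ⟨i, hi⟩ : P.Nonempty := Set.nonempty_of_ncard_ne_zero (by omega)
          exact hE t ht ⟨hX t ⟨i, h2 hi, hsub hi⟩, by omega⟩
        exact hT (Set.eq_of_subset_of_ncard_le h2 (by omega) (Set.toFinite _)).symm
      obtain ⟨i, hi, hit⟩ := not_subset.1 h1
      have h2 : {x | i ∈ T x}ᶜ ∈ 𝓝 (z + cis t) := (h.closed i).isOpen_compl.mem_nhds hit
      filter_upwards [(hc.tendsto t).eventually h2] with s hs hsP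
      exact hs (by rw [hsP]; exact hi)
    intro t1 ht1
    by_contra hne
    obtain ⟨t, -, hA, hB⟩ := isPreconnected_Ioo (a := α) (b := β)
      {t | ∀ᶠ s in 𝓝 t, T (z + cis s) = P} {t | ∀ᶠ s in 𝓝 t, T (z + cis s) ≠ P}
      (isOpen_setOfPred_eventually_nhds) (isOpen_setOfPred_eventually_nhds)
      (fun t ht => by
        by_cases h1 : T (z + cis t) = P
        · exact Or.inl (hopen t ht h1)
        · exact Or.inr (hclosed t ht h1))
      ⟨t0, ht0, hopen t0 ht0 rfl⟩ ⟨t1, ht1, hclosed t1 ht1 hne⟩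
    obtain ⟨s, hs1, hs2⟩ := (hA.and hB).exists
    exact hs2 hs1
  · right
    push Not at hex
    intro t ht
    obtain ⟨i, hi, hiz⟩ := not_subset.1 (hex t ht)
    exact ⟨i, hi, hiz⟩

end Vale.Agent.P032.Six
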