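import Vale.Agent.P032.H820.Hull

/-!
# P032: near and far

Let `z`, `V` be at distance one with a common colour `i`.  `InS U z V i`: near `V` the colour `i` is in
the closed disc of `z`; `OutS U z V i`: it is outside the open disc of `z`.
`Irr.in_sym`, `Irr.out_sym`: if the points of colour `i` near `V` are connected to `V`, then the side
at `V` with respect to `S(z)` and the side at `z` with respect to `S(V)` agree.
`Irr.near_or_far`: every common colour of a pair at distance one is near (inside from both ends) or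
far (outside from both ends).
-/

open Set Filter Topology Metric

noncomputable section

namespace Vale.Agent.P032.Six

variable {k : ℕ} {U : Fin k → Set ℂ} {T : ℂ → Set (Fin k)}

/-- near `V` the colour `i` is in the closed disc of `z` -/
def InS (U : Fin k → Set ℂ) (z V : ℂ) (i : Fin k) : Prop :=
  ∀ᶠ x in 𝓝 V, 1 < dist x z → i ∉ Pal U x

/-- near `V` the colour `i` is outside the open disc of `z` -/
def OutS (U : Fin k → Set ℂ) (z V : ℂ) (i : Fin k) : Prop :=
  ∀ᶠ x in 𝓝 V, dist x z < 1 → i ∉ Pal U x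

theorem Mx.in_or_out (h : Mx U) {z : ℂ} {i : Fin k} (hc : Ct U z i) (V : ℂ) :
    InS U z V i ∨ OutS U z V i := h.sided_of_ct hc

/-- not both -/
theorem Mx.not_in_out (h : Mx U) {z V : ℂ} {i : Fin k} (hz : i ∈ Pal U z) (hV : i ∈ Pal U V)
    (h1 : InS U z V i) (h2 : OutS U z V i) : False := by
  obtain ⟨x, hxU, hx1, hx2⟩ := ((mem_closure_iff_frequently.1 hV).and_eventually
    (h1.and h2)).exists
  have h3 : dist x z ≠ 1 := h.free i x hxU z hz
  rcases lt_or_gt_of_ne h3 with h4 | h4
  · exact hx2 h4 (subset_closure hxU)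
  · exact hx1 h4 (subset_closure hxU)

/-- a colour which is inside at `V` is inside at `z` -/
theorem Irr.in_sym (h : Irr U T) {z V : ℂ} (hzV : dist z V = 1) {i : Fin k} (hn : Ctn U T V)
    (hz : i ∈ Pal U z) (hV : i ∈ T V) (h1 : InS U z V i) : InS U V z i := by
  obtain ⟨w, hw, hw1, hw2⟩ := ((h.pure V i hV).and_eventually (h1.and hn)).exists
  obtain ⟨Q, hQF, hQ, hVQ, hwQ⟩ := hw2 i (by rw [hw]; rfl)
  have hwU : w ∈ U i := h.mem_of_single hw.subset
  have h3 : dist w z ≠ 1 := h.mx.free i w hwU z hz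
  have h4 : dist w z < 1 := by
    rcases lt_or_gt_of_ne h3 with h4 | h4
    · exact h4
    · exact absurd (subset_closure hwU) (hw1 h4)
  have hev : ∀ᶠ x in 𝓝 z, dist w x < 1 :=
    (continuous_const.dist continuous_id).continuousAt.eventually_lt_const h4
  filter_upwards [hev] with x hx hxV
  exact h.mx.wlemma hQ hQF hwQ hVQ hx (by rw [dist_comm]; exact hxV)

/-- a colour which is outside at `V` is outside at `z` -/
theorem Irr.out_sym (h : Irr U T) {z V : ℂ} (hzV : dist z V = 1) {i : Fin k} (hn : Ctn U T V)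
    (hz : i ∈ Pal U z) (hV : i ∈ T V) (h1 : OutS U z V i) : OutS U V z i := by
  obtain ⟨w, hw, hw1, hw2⟩ := ((h.pure V i hV).and_eventually (h1.and hn)).exists
  obtain ⟨Q, hQF, hQ, hVQ, hwQ⟩ := hw2 i (by rw [hw]; rfl)
  have hwU : w ∈ U i := h.mem_of_single hw.subset
  have h3 : dist w z ≠ 1 := h.mx.free i w hwU z hz
  have h4 : 1 < dist w z := by
    rcases lt_or_gt_of_ne h3 with h4 | h4
    · exact absurd (subset_closure hwU) (hw1 h4)
    · exact h4
  have hev : ∀ᶠ x in 𝓝 z, 1 < dist w x :=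
    (continuous_const.dist continuous_id).continuousAt.eventually_const_lt h4
  filter_upwards [hev] with x hx hxV
  exact h.mx.wlemma hQ hQF hVQ hwQ (by rw [dist_comm]; exact hxV) hx

/-- `i` is near for the pair `z`, `V` -/
def Nr (U : Fin k → Set ℂ) (z V : ℂ) (i : Fin k) : Prop := InS U z V i ∧ InS U V z i

/-- `i` is far for the pair `z`, `V` -/
def Fr (U : Fin k → Set ℂ) (z V : ℂ) (i : Fin k) : Prop := OutS U z V i ∧ OutS U V z i

theorem Nr.symm {z V : ℂ} {i : Fin k} (h : Nr U z V i) : Nr U V z i := ⟨h.2, h.1⟩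

theorem Fr.symm {z V : ℂ} {i : Fin k} (h : Fr U z V i) : Fr U V z i := ⟨h.2, h.1⟩

/-- **near or far** -/
theorem Irr.near_or_far (h : Irr U T) {z V : ℂ} (hzV : dist z V = 1) {i : Fin k} (hc : Ct U z i)
    (hn : Ctn U T V) (hz : i ∈ Pal U z) (hV : i ∈ T V) : Nr U z V i ∨ Fr U z V i := by
  rcases h.mx.in_or_out hc V with h1 | h1
  · exact Or.inl ⟨h1, h.in_sym hzV hn hz hV h1⟩
  · exact Or.inr ⟨h1, h.out_sym hzV hn hz hV h1⟩

theorem Irr.not_near_far (h : Irr U T) {z V : ℂ} {i : Fin k} (hz : i ∈ Pal U z)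
    (hV : i ∈ Pal U V) (h1 : Nr U z V i) (h2 : Fr U z V i) : False :=
  h.mx.not_in_out hz hV h1.1 h2.1

end Vale.Agent.P032.Six
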